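import Vale.Agent.P153.F.PL.Tail

/-!
# P153-F: all moments of linear functionals of the plane measure, from the second moment
-/

namespace Vale.Agent.P153.F.PL

open Finset MeasureTheory Filter Topology
open Vale.Agent.P153.GFF (Ht Pat LocLim hexa)

/-- Tails from the midpoint inequality. -/
theorem tail_iter {F : ℝ → ℝ} (hF0 : ∀ t, 0 ≤ F t) (hanti : Antitone F) {c t₀ : ℝ} (hc : 0 ≤ c)
    (ht0 : 0 ≤ t₀) (hmid : ∀ t s, F t * F s ≤ F ((t + s) / 2 - c) ^ 2) (h1 : F t₀ ≤ 1 / 16)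
    (h2 : 15 / 16 ≤ F (-t₀)) (j : ℕ) : F (2 ^ j * (2 * t₀ + 2 * c)) ≤ (1 / 15 : ℝ) ^ 2 ^ j := by
  have key : ∀ j : ℕ, F (2 ^ j * (2 * t₀ + 2 * c) - (t₀ + 2 * c)) ≤
      15 / 16 * (1 / 15 : ℝ) ^ 2 ^ j := by
    intro j
    induction j with
    | zero =>
      have e : (2 : ℝ) ^ 0 * (2 * t₀ + 2 * c) - (t₀ + 2 * c) = t₀ := by ring
      rw [e]
      refine h1.trans ?_
      norm_num
    | succ j ih =>
      set u := (2 : ℝ) ^ j * (2 * t₀ + 2 * c) - (t₀ + 2 * c) with hu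
      have e : (2 : ℝ) ^ (j + 1) * (2 * t₀ + 2 * c) - (t₀ + 2 * c) = 2 * u + t₀ + 2 * c := by
        rw [hu, pow_succ]
        ring
      rw [e]
      have h3 := hmid (2 * u + t₀ + 2 * c) (-t₀)
      have e2 : (2 * u + t₀ + 2 * c + -t₀) / 2 - c = u := by ring
      rw [e2] at h3
      have h4 : F u ^ 2 ≤ (15 / 16 * (1 / 15 : ℝ) ^ 2 ^ j) ^ 2 :=
        pow_le_pow_left₀ (hF0 u) ih 2
      have h5 : F (2 * u + t₀ + 2 * c) * (15 / 16) ≤ F (2 * u + t₀ + 2 * c) * F (-t₀) :=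
        mul_le_mul_of_nonneg_left h2 (hF0 _)
      have h6 : (15 / 16 * (1 / 15 : ℝ) ^ 2 ^ j) ^ 2 =
          (15 / 16 * (1 / 15 : ℝ) ^ 2 ^ (j + 1)) * (15 / 16) := by
        rw [pow_succ 2 j, pow_mul]
        ring
      rw [h6] at h4
      have h7 := h5.trans (h3.trans h4)
      exact le_of_mul_le_mul_right h7 (by norm_num)
  refine (hanti ?_).trans ((key j).trans ?_)
  · linarith
  · have : (0 : ℝ) ≤ (1 / 15 : ℝ) ^ 2 ^ j := by positivity
    linarith

/-- The constants. -/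
noncomputable def Ck (k : ℕ) : ℝ := 1 + ∑' j : ℕ, (2 * (2 : ℝ) ^ j) ^ (2 * k) *
  (2 * (1 / 15 : ℝ) ^ 2 ^ j)

theorem summable_ck (k : ℕ) : Summable fun j : ℕ => (2 * (2 : ℝ) ^ j) ^ (2 * k) *
    (2 * (1 / 15 : ℝ) ^ 2 ^ j) := by
  have h1 : Summable fun n : ℕ => (n : ℝ) ^ (2 * k) * (1 / 15 : ℝ) ^ n :=
    summable_pow_mul_geometric_of_norm_lt_one _ (by norm_num)
  have h2 : Function.Injective fun j : ℕ => 2 ^ j := Nat.pow_right_injective le_rfl
  have h3 := (h1.comp_injective h2).mul_left ((2 : ℝ) ^ (2 * k) * 2)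
  refine h3.congr fun j => ?_
  simp only [Function.comp, Nat.cast_pow, Nat.cast_ofNat]
  rw [mul_pow]
  ring

theorem ck_nonneg (k : ℕ) : 0 ≤ Ck k := by
  unfold Ck
  have : 0 ≤ ∑' j : ℕ, (2 * (2 : ℝ) ^ j) ^ (2 * k) * (2 * (1 / 15 : ℝ) ^ 2 ^ j) :=
    tsum_nonneg fun j => by positivity
  linarith

open Classical in
theorem pow_le_layers {x b : ℝ} (hx : 0 ≤ x) (hb : 0 < b) (k : ℕ) : ∀ J : ℕ, x < 2 ^ J * b →
    x ^ (2 * k) ≤ b ^ (2 * k) * (1 + ∑ j ∈ range J,
      (2 * (2 : ℝ) ^ j) ^ (2 * k) * if 2 ^ j * b ≤ x then 1 else 0) := by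
  intro J
  induction J with
  | zero =>
    intro h
    simp only [range_zero, sum_empty, add_zero, mul_one]
    refine pow_le_pow_left₀ hx ?_ _
    have : (2 : ℝ) ^ 0 * b = b := by ring
    linarith
  | succ J ih =>
    intro h
    have hb2 : 0 ≤ b ^ (2 * k) := by positivity
    have hs : 0 ≤ ∑ j ∈ range J, (2 * (2 : ℝ) ^ j) ^ (2 * k) *
        (if 2 ^ j * b ≤ x then (1 : ℝ) else 0) := by
      refine sum_nonneg fun j _ => mul_nonneg (by positivity) ?_
      split_ifs <;> norm_num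
    rw [sum_range_succ]
    by_cases hJ : 2 ^ J * b ≤ x
    · rw [if_pos hJ, mul_one]
      have h1 : x ^ (2 * k) ≤ (2 ^ (J + 1) * b) ^ (2 * k) := pow_le_pow_left₀ hx h.le _
      have h2 : ((2 : ℝ) ^ (J + 1) * b) ^ (2 * k) = b ^ (2 * k) * (2 * (2 : ℝ) ^ J) ^ (2 * k) := by
        rw [← mul_pow]
        congr 1
        rw [pow_succ]
        ring
      rw [h2] at h1
      refine h1.trans (mul_le_mul_of_nonneg_left ?_ hb2)
      linarith
    · push Not at hJ
      rw [if_neg (not_le.2 hJ), mul_zero, add_zero]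
      exact ih hJ

theorem mom_of_tail {Ω : Type*} [MeasurableSpace Ω] (μ : Measure Ω) [IsProbabilityMeasure μ]
    {X : Ω → ℝ} (hX : Measurable X) {M : ℝ} (hM : ∀ᵐ ω ∂μ, |X ω| ≤ M) {b : ℝ} (hb : 0 < b)
    (ht : ∀ j : ℕ, μ.real {ω | 2 ^ j * b ≤ |X ω|} ≤ 2 * (1 / 15 : ℝ) ^ 2 ^ j) (k : ℕ) :
    ∫ ω, X ω ^ (2 * k) ∂μ ≤ b ^ (2 * k) * Ck k := by
  classical
  obtain ⟨J, hJ⟩ : ∃ J : ℕ, M < 2 ^ J * b := by
    obtain ⟨J, hJ⟩ := pow_unbounded_of_one_lt (M / b) (one_lt_two (α := ℝ))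
    exact ⟨J, by rwa [div_lt_iff₀ hb] at hJ⟩
  have hm : ∀ j : ℕ, MeasurableSet {ω | 2 ^ j * b ≤ |X ω|} := fun j =>
    measurableSet_le measurable_const hX.abs
  set G : Ω → ℝ := fun ω => b ^ (2 * k) * (1 + ∑ j ∈ range J, (2 * (2 : ℝ) ^ j) ^ (2 * k) *
    ({ω | 2 ^ j * b ≤ |X ω|} : Set Ω).indicator (fun _ => (1 : ℝ)) ω) with hG
  have hGi : Integrable G μ := by
    refine Integrable.const_mul ?_ _
    refine (integrable_const _).add (integrable_finsetSum _ fun j _ => ?_)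
    exact ((integrable_const _).indicator (hm j)).const_mul _
  have hle : ∀ᵐ ω ∂μ, X ω ^ (2 * k) ≤ G ω := by
    filter_upwards [hM] with ω hω
    have h1 := pow_le_layers (abs_nonneg (X ω)) hb k J (lt_of_le_of_lt hω hJ)
    rw [pow_mul, sq_abs, ← pow_mul] at h1
    refine h1.trans (le_of_eq ?_)
    simp only [hG, Set.indicator_apply, Set.mem_ofPred_eq]
  have hXi : Integrable (fun ω => X ω ^ (2 * k)) μ := by
    refine Integrable.mono' hGi (hX.pow_const _).aestronglyMeasurable ?_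
    filter_upwards [hle] with ω hω
    rw [Real.norm_eq_abs, abs_of_nonneg (by rw [pow_mul]; positivity)]
    exact hω
  refine (integral_mono_ae hXi hGi hle).trans ?_
  rw [hG]
  rw [integral_const_mul, integral_add (integrable_const _)
    (integrable_finsetSum _ fun j _ => ((integrable_const _).indicator (hm j)).const_mul _),
    integral_finsetSum _ fun j _ => ((integrable_const _).indicator (hm j)).const_mul _]
  refine mul_le_mul_of_nonneg_left ?_ (by positivity)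
  unfold Ck
  rw [integral_const, probReal_univ, one_smul]
  refine add_le_add le_rfl ?_
  refine le_trans (sum_le_sum fun j _ => ?_) (Summable.sum_le_tsum (range J)
    (fun j _ => by positivity) (summable_ck k))
  rw [integral_const_mul, integral_indicator_const _ (hm j), smul_eq_mul, mul_one]
  exact mul_le_mul_of_nonneg_left (ht j) (by positivity)

theorem lin_bdd {P : Measure (ℤ × ℤ → ℤ)}
    (hl : ∀ᵐ φ ∂P, ∀ x y, GFF.Adj x y → |φ x - φ y| ≤ 1)
    {B : Finset (ℤ × ℤ)} {a : ℤ × ℤ → ℝ} (ha : ∑ v ∈ B, a v = 0) :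
    ∃ M : ℝ, ∀ᵐ φ ∂P, |lin B a φ| ≤ M := by
  refine ⟨∑ v ∈ B, |a v| * ((|v.1| + |v.2| : ℤ) : ℝ), ?_⟩
  filter_upwards [hl] with φ hφ
  have h1 : lin B a φ = ∑ v ∈ B, a v * ((φ v - φ (0, 0) : ℤ) : ℝ) := by
    unfold lin
    have h2 : ∑ v ∈ B, a v * ((φ v - φ (0, 0) : ℤ) : ℝ) =
        ∑ v ∈ B, a v * φ v - (∑ v ∈ B, a v) * φ (0, 0) := by
      rw [sum_mul, ← sum_sub_distrib]
      refine sum_congr rfl fun v _ => ?_
      push_cast
      ring
    rw [h2, ha]
    ring
  rw [h1]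
  refine (abs_sum_le_sum_abs _ _).trans (sum_le_sum fun v _ => ?_)
  rw [abs_mul]
  refine mul_le_mul_of_nonneg_left ?_ (abs_nonneg _)
  rw [← Int.cast_abs]
  exact Int.cast_le.2 (Strip.lip_bound hφ v)

theorem lin_neg (B : Finset (ℤ × ℤ)) (a : ℤ × ℤ → ℝ) (φ : ℤ × ℤ → ℤ) :
    lin B (fun v => -a v) φ = -lin B a φ := by
  unfold lin
  rw [← sum_neg_distrib]
  exact sum_congr rfl fun v _ => by ring

/-- **All moments of a linear functional with total weight zero.** -/
theorem moment (k : ℕ) {P : Measure (ℤ × ℤ → ℤ)} [IsProbabilityMeasure P]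
    (hl : ∀ᵐ φ ∂P, ∀ x y, GFF.Adj x y → |φ x - φ y| ≤ 1) (hP : LocLim P hexa)
    {B : Finset (ℤ × ℤ)} {a : ℤ × ℤ → ℝ} (ha : ∑ v ∈ B, a v = 0) :
    ∫ φ, lin B a φ ^ (2 * k) ∂P ≤
      81 ^ k * Ck k * (∫ φ, lin B a φ ^ 2 ∂P + (∑ v ∈ B, |a v|) ^ 2) ^ k := by
  set σ := ∫ φ, lin B a φ ^ 2 ∂P with hσ
  set S := ∑ v ∈ B, |a v| with hS
  have hS0 : 0 ≤ S := sum_nonneg fun _ _ => abs_nonneg _
  have hσ0 : 0 ≤ σ := integral_nonneg fun _ => sq_nonneg _
  rcases eq_or_lt_of_le hS0 with hz | hSp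
  · -- the functional vanishes
    have hz' : ∀ v ∈ B, a v = 0 := fun v hv => by
      have := (sum_eq_zero_iff_of_nonneg fun _ _ => abs_nonneg _).1 hz.symm v hv
      exact abs_eq_zero.1 this
    have h0 : ∀ φ, lin B a φ = 0 := fun φ => by
      unfold lin
      exact sum_eq_zero fun v hv => by rw [hz' v hv, zero_mul]
    rcases Nat.eq_zero_or_pos k with hk | hk
    · subst hk
      simp only [Nat.mul_zero, pow_zero, integral_const, probReal_univ, one_smul, mul_one, one_mul]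
      unfold Ck
      have : 0 ≤ ∑' j : ℕ, (2 * (2 : ℝ) ^ j) ^ (2 * 0) * (2 * (1 / 15 : ℝ) ^ 2 ^ j) :=
        tsum_nonneg fun j => by positivity
      linarith
    · have h1 : ∫ φ, lin B a φ ^ (2 * k) ∂P = 0 := by
        simp only [h0]
        rw [zero_pow (by omega)]
        simp
      rw [h1]
      have := ck_nonneg k
      positivity
  set m := √(σ + S ^ 2) with hm
  have hmp : 0 < m := Real.sqrt_pos.2 (by positivity)
  have hm2 : m ^ 2 = σ + S ^ 2 := Real.sq_sqrt (by positivity)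
  have hSm : S ≤ m := Real.le_sqrt_of_sq_le (by linarith)
  obtain ⟨M, hM⟩ := lin_bdd hl ha
  have hX := measurable_lin B a
  have hXi : Integrable (fun φ => lin B a φ ^ 2) P := by
    refine Integrable.mono' (integrable_const (M ^ 2)) (hX.pow_const 2).aestronglyMeasurable ?_
    filter_upwards [hM] with φ hφ
    rw [Real.norm_eq_abs, abs_of_nonneg (sq_nonneg _), ← sq_abs]
    exact pow_le_pow_left₀ (abs_nonneg _) hφ 2
  -- Chebyshev
  have hch : P.real {φ | 4 * m ≤ |lin B a φ|} ≤ 1 / 16 := by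
    have h1 := mul_meas_ge_le_integral_of_nonneg (μ := P) (f := fun φ => lin B a φ ^ 2)
      (Eventually.of_forall fun φ => sq_nonneg _) hXi ((4 * m) ^ 2)
    have h2 : P.real {φ | (4 * m) ^ 2 ≤ lin B a φ ^ 2} = P.real {φ | 4 * m ≤ |lin B a φ|} := by
      congr 1
      ext φ
      simp only [Set.mem_ofPred_eq]
      rw [← sq_abs (lin B a φ)]
      exact pow_le_pow_iff_left₀ (by positivity) (abs_nonneg _) two_ne_zero
    rw [h2] at h1
    have h3 : (4 * m) ^ 2 * P.real {φ | 4 * m ≤ |lin B a φ|} ≤ m ^ 2 := by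
      refine h1.trans ?_
      rw [hm2]
      have : ∫ φ, lin B a φ ^ 2 ∂P = σ := rfl
      rw [this]
      have := sq_nonneg S
      linarith
    have h4 : 0 < m ^ 2 := by positivity
    have h5 : m ^ 2 * (16 * P.real {φ | 4 * m ≤ |lin B a φ|}) ≤ m ^ 2 * 1 := by
      calc m ^ 2 * (16 * P.real {φ | 4 * m ≤ |lin B a φ|})
          = (4 * m) ^ 2 * P.real {φ | 4 * m ≤ |lin B a φ|} := by ring
        _ ≤ m ^ 2 := h3
        _ = m ^ 2 * 1 := by ring
    have h6 := le_of_mul_le_mul_left h5 h4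
    linarith
  -- one-sided tails
  have side : ∀ a' : ℤ × ℤ → ℝ, (a' = a ∨ a' = fun v => -a v) → ∀ j : ℕ,
      P.real {φ | 2 ^ j * (9 * m) ≤ lin B a' φ} ≤ (1 / 15 : ℝ) ^ 2 ^ j := by
    intro a' ha' j
    have hab : ∀ φ, |lin B a' φ| = |lin B a φ| := by
      intro φ
      rcases ha' with rfl | rfl
      · rfl
      · rw [lin_neg, abs_neg]
    have hsum : ∑ v ∈ B, a' v = 0 := by
      rcases ha' with rfl | rfl
      · exact ha
      · rw [sum_neg_distrib, ha, neg_zero]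
    have hS' : ∑ v ∈ B, |a' v| = S := by
      rcases ha' with rfl | rfl
      · rfl
      · simp only [abs_neg]
        rfl
    set F : ℝ → ℝ := fun t => P.real {φ | t ≤ lin B a' φ} with hF
    have hanti : Antitone F := by
      intro t s hts
      refine measureReal_mono (fun φ hφ => ?_)
      have : s ≤ lin B a' φ := hφ
      exact hts.trans this
    have h1 : F (4 * m) ≤ 1 / 16 := by
      refine le_trans (measureReal_mono fun φ hφ => ?_) hch
      have h2 : 4 * m ≤ lin B a' φ := hφ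
      have h3 : 4 * m ≤ |lin B a φ| := by
        rw [← hab]
        exact h2.trans (le_abs_self _)
      exact h3
    have h2 : 15 / 16 ≤ F (-(4 * m)) := by
      have h3 : P.real ({φ | -(4 * m) ≤ lin B a' φ}ᶜ) ≤ 1 / 16 := by
        refine le_trans (measureReal_mono fun φ hφ => ?_) hch
        have h4 : ¬ -(4 * m) ≤ lin B a' φ := hφ
        push Not at h4
        have h5 : 4 * m ≤ |lin B a φ| := by
          rw [← hab]
          have := neg_le_abs (lin B a' φ)
          linarith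
        exact h5
      have h6 := probReal_compl_eq_one_sub (μ := P)
        (measurableSet_le (measurable_const (a := -(4 * m))) (measurable_lin B a'))
      have h7 : P.real ({φ | -(4 * m) ≤ lin B a' φ}ᶜ) = 1 - F (-(4 * m)) := h6
      rw [h7] at h3
      linarith
    have h3 := tail_iter (F := F) (fun t => measureReal_nonneg) hanti (c := S / 2) (t₀ := 4 * m)
      (by positivity) (by positivity) (fun t s => by
        have := tail_mid hl hP hsum t s
        rw [hS'] at this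
        exact this) h1 h2 j
    refine (hanti ?_).trans h3
    refine mul_le_mul_of_nonneg_left ?_ (by positivity)
    linarith
  have htail : ∀ j : ℕ, P.real {φ | 2 ^ j * (9 * m) ≤ |lin B a φ|} ≤
      2 * (1 / 15 : ℝ) ^ 2 ^ j := by
    intro j
    have h1 := side a (Or.inl rfl) j
    have h2 := side (fun v => -a v) (Or.inr rfl) j
    have h3 : {φ | 2 ^ j * (9 * m) ≤ |lin B a φ|} ⊆
        {φ | 2 ^ j * (9 * m) ≤ lin B a φ} ∪ {φ | 2 ^ j * (9 * m) ≤ lin B (fun v => -a v) φ} := by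
      intro φ hφ
      have h4 : 2 ^ j * (9 * m) ≤ |lin B a φ| := hφ
      rcases le_abs.1 h4 with h5 | h5
      · exact Or.inl h5
      · refine Or.inr ?_
        have h6 : 2 ^ j * (9 * m) ≤ lin B (fun v => -a v) φ := by rwa [lin_neg]
        exact h6
    have h4 := (measureReal_mono (μ := P) h3).trans (measureReal_union_le _ _)
    linarith
  have hfin := mom_of_tail P hX hM (b := 9 * m) (by positivity) htail k
  refine hfin.trans (le_of_eq ?_)
  rw [pow_mul, mul_pow, hm2, mul_pow]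
  norm_num
  ring

end Vale.Agent.P153.F.PL
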