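import Vale.Agent.P153.F.PL.One

/-!
# Discrete Prékopa–Leindler inequality (Klartag–Lehec): all dimensions
-/

namespace Vale.Agent.P153.F.PL

open Finset Function

variable {α : Type*} [DecidableEq α]

/-- The lower midpoint. -/
def fl (a b : α → ℤ) : α → ℤ := fun x => (a x + b x) / 2

/-- The upper midpoint. -/
def ce (a b : α → ℤ) : α → ℤ := fun x => (a x + b x + 1) / 2

/-- Sum over the coordinates of the list. -/
noncomputable def bs (N : ℕ) : List α → ((α → ℤ) → ℝ) → (α → ℤ) → ℝ
  | [], f, ξ => f ξ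
  | x :: l, f, ξ => ∑ t ∈ Icc (-(N : ℤ)) N, bs N l f (update ξ x t)

theorem bs_nonneg (N : ℕ) {f : (α → ℤ) → ℝ} (hf : ∀ a, 0 ≤ f a) :
    ∀ (l : List α) (ξ : α → ℤ), 0 ≤ bs N l f ξ
  | [], ξ => hf ξ
  | _ :: l, _ => sum_nonneg fun _ _ => bs_nonneg N hf l _

theorem fl_update (ξ ξ' : α → ℤ) (x : α) (t t' : ℤ) :
    fl (update ξ x t) (update ξ' x t') = update (fl ξ ξ') x ((t + t') / 2) := by
  funext y
  by_cases h : y = x
  · subst h
    simp [fl]
  · simp [fl, h]

theorem ce_update (ξ ξ' : α → ℤ) (x : α) (t t' : ℤ) :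
    ce (update ξ x t) (update ξ' x t') = update (ce ξ ξ') x ((t + t' + 1) / 2) := by
  funext y
  by_cases h : y = x
  · subst h
    simp [ce]
  · simp [ce, h]

theorem pl (N : ℕ) {f g h k : (α → ℤ) → ℝ} (hf : ∀ a, 0 ≤ f a) (hg : ∀ a, 0 ≤ g a)
    (hh : ∀ a, 0 ≤ h a) (hk : ∀ a, 0 ≤ k a) (H : ∀ a b, f a * g b ≤ h (fl a b) * k (ce a b)) :
    ∀ (l : List α) (ξ ξ' : α → ℤ), bs N l f ξ * bs N l g ξ' ≤
      bs N l h (fl ξ ξ') * bs N l k (ce ξ ξ')
  | [], ξ, ξ' => H ξ ξ'
  | x :: l, ξ, ξ' => by
    refine dim1 N (f := fun t => bs N l f (update ξ x t)) (g := fun t => bs N l g (update ξ' x t))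
      (h := fun t => bs N l h (update (fl ξ ξ') x t))
      (k := fun t => bs N l k (update (ce ξ ξ') x t)) (fun _ => bs_nonneg N hf _ _)
      (fun _ => bs_nonneg N hg _ _) (fun _ => bs_nonneg N hh _ _) (fun _ => bs_nonneg N hk _ _) ?_
    intro t t'
    have := pl N hf hg hh hk H l (update ξ x t) (update ξ' x t')
    rw [fl_update, ce_update] at this
    exact this

/-- The configurations which agree with `ξ` off the list, with values in `[-N, N]` on it. -/
noncomputable def box (N : ℕ) : List α → (α → ℤ) → Set (α → ℤ) := fun l ξ =>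
  {h | (∀ x, x ∉ l → h x = ξ x) ∧ ∀ x ∈ l, |h x| ≤ N}

theorem finite_box (N : ℕ) : ∀ (l : List α) (ξ : α → ℤ), (box N l ξ).Finite
  | [], ξ => by
    refine (Set.finite_singleton ξ).subset fun h hh => ?_
    rw [Set.mem_singleton_iff]
    funext x
    exact hh.1 x (by simp)
  | x :: l, ξ => by
    refine (Set.Finite.biUnion (Icc (-(N : ℤ)) N).finite_toSet
      fun t _ => finite_box N l (update ξ x t)).subset fun h hh => ?_
    rw [Set.mem_iUnion₂]
    refine ⟨h x, ?_, fun y hy => ?_, fun y hy => hh.2 y (List.mem_cons_of_mem _ hy)⟩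
    · have := hh.2 x (by simp)
      rw [abs_le] at this
      simp only [coe_Icc, Set.mem_Icc]
      exact this
    · by_cases hyx : y = x
      · subst hyx
        simp
      · rw [update_of_ne hyx]
        exact hh.1 y (by simp [hyx, hy])

open Classical in
theorem bs_eq (N : ℕ) (f : (α → ℤ) → ℝ) : ∀ (l : List α) (ξ : α → ℤ), l.Nodup →
    bs N l f ξ = ∑ h ∈ (finite_box N l ξ).toFinset, f h
  | [], ξ, _ => by
    have : (finite_box N [] ξ).toFinset = {ξ} := by
      ext h
      rw [Set.Finite.mem_toFinset, mem_singleton]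
      constructor
      · intro hh
        funext x
        exact hh.1 x (by simp)
      · rintro rfl
        exact ⟨fun _ _ => rfl, fun x hx => absurd hx (by simp)⟩
    rw [this, sum_singleton]
    rfl
  | x :: l, ξ, hl => by
    rw [List.nodup_cons] at hl
    have hU : (finite_box N (x :: l) ξ).toFinset =
        (Icc (-(N : ℤ)) N).biUnion fun t => (finite_box N l (update ξ x t)).toFinset := by
      ext h
      rw [Set.Finite.mem_toFinset, mem_biUnion]
      constructor
      · intro hh
        refine ⟨h x, ?_, ?_⟩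
        · have := hh.2 x (by simp)
          rw [abs_le] at this
          rw [mem_Icc]
          exact this
        · rw [Set.Finite.mem_toFinset]
          refine ⟨fun y hy => ?_, fun y hy => hh.2 y (List.mem_cons_of_mem _ hy)⟩
          by_cases hyx : y = x
          · subst hyx
            simp
          · rw [update_of_ne hyx]
            exact hh.1 y (by simp [hyx, hy])
      · rintro ⟨t, ht, hh⟩
        rw [Set.Finite.mem_toFinset] at hh
        rw [mem_Icc] at ht
        have hx : h x = t := by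
          rw [hh.1 x hl.1, update_self]
        refine ⟨fun y hy => ?_, fun y hy => ?_⟩
        · rw [List.mem_cons, not_or] at hy
          rw [hh.1 y hy.2, update_of_ne hy.1]
        · rcases List.mem_cons.1 hy with rfl | hy
          · rw [hx, abs_le]
            exact ht
          · exact hh.2 y hy
    have hb : bs N (x :: l) f ξ = ∑ t ∈ Icc (-(N : ℤ)) N, bs N l f (update ξ x t) := rfl
    rw [hb, hU, sum_biUnion]
    · exact sum_congr rfl fun t _ => bs_eq N f l _ hl.2
    · intro t _ t' _ hne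
      rw [Function.onFun, disjoint_left]
      intro h h1 h2
      rw [Set.Finite.mem_toFinset] at h1 h2
      apply hne
      have e1 := h1.1 x hl.1
      have e2 := h2.1 x hl.1
      rw [update_self] at e1 e2
      rw [← e1, ← e2]

/-- Klartag–Lehec for finite sets: `|A| |B| ≤ |⌊(A+B)/2⌋| |⌈(A+B)/2⌉|`. -/
theorem card_mid {D : Finset α} {A B C E : Set (α → ℤ)} (hA : A.Finite) (hB : B.Finite)
    (hC : C.Finite) (hE : E.Finite) (h0 : ∀ h ∈ A ∪ B, ∀ x, x ∉ D → h x = 0)
    (h1 : ∀ a ∈ A, ∀ b ∈ B, fl a b ∈ C) (h2 : ∀ a ∈ A, ∀ b ∈ B, ce a b ∈ E) :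
    (A.ncard : ℝ) * B.ncard ≤ C.ncard * E.ncard := by
  classical
  -- a bound for the values
  obtain ⟨N, hN⟩ : ∃ N : ℕ, ∀ h ∈ A ∪ B, ∀ x ∈ D, |h x| ≤ N := by
    have hfin : ((fun p : (α → ℤ) × α => |p.1 p.2|) '' ((A ∪ B) ×ˢ (D : Set α))).Finite :=
      ((hA.union hB).prod D.finite_toSet).image _
    obtain ⟨M, hM⟩ := hfin.bddAbove
    refine ⟨M.toNat, fun h hh x hx => ?_⟩
    have := hM ⟨(h, x), ⟨hh, hx⟩, rfl⟩
    have h3 : |h x| ≤ M := this
    exact h3.trans (Int.self_le_toNat M)
  set l := D.toList with hl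
  have hnd : l.Nodup := D.nodup_toList
  set z : α → ℤ := fun _ => 0 with hz
  have hfz : fl z z = z := by
    funext x
    simp [fl, hz]
  have hcz : ce z z = z := by
    funext x
    simp [ce, hz]
  have hmem : ∀ h ∈ A ∪ B, h ∈ (finite_box N l z).toFinset := by
    intro h hh
    rw [Set.Finite.mem_toFinset]
    refine ⟨fun x hx => h0 h hh x ?_, fun x hx => hN h hh x ?_⟩
    · rwa [hl, Finset.mem_toList] at hx
    · rwa [hl, Finset.mem_toList] at hx
  have hin : ∀ S : Set (α → ℤ), ∀ hS : S.Finite, S ⊆ A ∪ B →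
      bs N l (S.indicator fun _ => 1) z = S.ncard := by
    intro S hS hSA
    rw [bs_eq N _ l z hnd, Finset.sum_indicator_eq_sum_filter, Finset.sum_const, nsmul_eq_mul,
      mul_one, Set.ncard_eq_toFinset_card S hS]
    congr 2
    ext h
    rw [Finset.mem_filter, Set.Finite.mem_toFinset hS]
    exact ⟨fun hh => hh.2, fun hh => ⟨hmem h (hSA hh), hh⟩⟩
  have hle : ∀ S : Set (α → ℤ), ∀ hS : S.Finite,
      bs N l (S.indicator fun _ => 1) z ≤ S.ncard := by
    intro S hS
    rw [bs_eq N _ l z hnd, Finset.sum_indicator_eq_sum_filter, Finset.sum_const, nsmul_eq_mul,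
      mul_one, Set.ncard_eq_toFinset_card S hS]
    refine Nat.cast_le.2 (Finset.card_le_card fun h hh => ?_)
    rw [Finset.mem_filter] at hh
    rw [Set.Finite.mem_toFinset]
    exact hh.2
  have hnn : ∀ S : Set (α → ℤ), ∀ a, 0 ≤ S.indicator (fun _ => (1 : ℝ)) a := fun S a =>
    Set.indicator_nonneg (fun _ _ => zero_le_one) a
  have key := pl N (hnn A) (hnn B) (hnn C) (hnn E) ?_ l z z
  · rw [hfz, hcz, hin A hA Set.subset_union_left, hin B hB Set.subset_union_right] at key
    exact key.trans (mul_le_mul (hle C hC) (hle E hE) (bs_nonneg N (hnn E) l z)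
      (Nat.cast_nonneg _))
  · intro a b
    by_cases ha : a ∈ A
    · by_cases hb : b ∈ B
      · rw [Set.indicator_of_mem ha, Set.indicator_of_mem hb, Set.indicator_of_mem (h1 a ha b hb),
          Set.indicator_of_mem (h2 a ha b hb)]
      · rw [Set.indicator_of_notMem hb, mul_zero]
        exact mul_nonneg (hnn _ _) (hnn _ _)
    · rw [Set.indicator_of_notMem ha, zero_mul]
      exact mul_nonneg (hnn _ _) (hnn _ _)

end Vale.Agent.P153.F.PL
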