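import Mathlib

/-!
# Discrete Prékopa–Leindler inequality (Klartag–Lehec): dimension one

If `f x * g y ≤ h ⌊(x+y)/2⌋ * k ⌈(x+y)/2⌉`, the same holds for the partial sums.
-/

namespace Vale.Agent.P153.F.PL

open Finset

theorem core_norm {a b e c r : ℝ} (e0 : 0 ≤ e) (a1 : a ≤ 1) (b1 : b ≤ 1)
    (e1 : e ≤ 1) (c1 : c ≤ 1) (r0 : 0 ≤ r) (r1 : r < 1) (k1 : 1 - a ≤ (1 - e) * r)
    (k2 : 1 - b ≤ (1 - e) * r) (k3 : (1 - a) * (1 - b) ≤ (1 - e) * (1 - c) * r)
    (k4 : a * b ≤ e * c * r) : False := by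
  have s1 : (1 - e) * r ≤ 1 - e := mul_le_of_le_one_right (by linarith) r1.le
  have ae : e ≤ a := by linarith
  have be : e ≤ b := by linarith
  rcases eq_or_lt_of_le e1 with hee | hee
  · subst hee
    have ha1 : a = 1 := le_antisymm a1 ae
    have hb1 : b = 1 := le_antisymm b1 be
    rw [ha1, hb1] at k4
    have : c * r ≤ 1 * r := mul_le_mul_of_nonneg_right c1 r0
    linarith
  · have s2 : (1 - e) * (e - a * b) ≤ e * ((1 - a) * (1 - b)) := by
      have := mul_nonneg (sub_nonneg.2 ae) (sub_nonneg.2 be)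
      linarith
    have s3 : (1 - e) * (e - a * b) ≤ (1 - e) * (e * (1 - c) * r) := by
      refine s2.trans ?_
      have := mul_le_mul_of_nonneg_left k3 e0
      linarith
    have s4 : e - a * b ≤ e * (1 - c) * r := le_of_mul_le_mul_left s3 (by linarith)
    have s5 : e * (1 - r) ≤ 0 := by linarith
    have s6 : e = 0 := by
      by_contra hne
      have h1 : 0 < e := lt_of_le_of_ne e0 (Ne.symm hne)
      have h2 : 0 < e * (1 - r) := mul_pos h1 (by linarith)
      linarith
    subst s6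
    have s7 : a * b ≤ 0 := by linarith
    have s8 : 0 < a := by linarith
    have s9 : 0 < b := by linarith
    have := mul_pos s8 s9
    linarith

/-- A ratio. -/
theorem exists_ratio {x y : ℝ} (hy : 0 < y) : ∃ a, x = a * y :=
  ⟨x / y, by field_simp⟩

theorem ratio_nonneg {a x y : ℝ} (hy : 0 < y) (hx : 0 ≤ x) (h : x = a * y) : 0 ≤ a := by
  rw [h] at hx
  exact nonneg_of_mul_nonneg_left hx hy

theorem ratio_le_one {a x y : ℝ} (hy : 0 < y) (hx : x ≤ y) (h : x = a * y) : a ≤ 1 := by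
  rw [h] at hx
  by_contra hcon
  push Not at hcon
  have : 1 * y < a * y := mul_lt_mul_of_pos_right hcon hy
  linarith

theorem core {F' f G' g H' h K' k : ℝ} (hF : 0 ≤ F') (hf : 0 ≤ f) (hG : 0 ≤ G') (hg : 0 ≤ g)
    (hH : 0 ≤ H') (hh : 0 ≤ h) (hK : 0 ≤ K') (hk : 0 ≤ k)
    (h1 : F' * (G' + g) ≤ H' * (K' + k)) (h2 : (F' + f) * G' ≤ H' * (K' + k))
    (h3 : F' * G' ≤ H' * K') (h4 : f * g ≤ h * k) :
    (F' + f) * (G' + g) ≤ (H' + h) * (K' + k) := by
  by_contra hcon
  push Not at hcon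
  have hP : 0 < (F' + f) * (G' + g) := lt_of_le_of_lt (by positivity) hcon
  have hFp : 0 < F' + f := by
    rcases (add_nonneg hF hf).eq_or_lt with h0 | h0
    · rw [← h0, zero_mul] at hP
      exact absurd hP (lt_irrefl _)
    · exact h0
  have hGp : 0 < G' + g := by
    rcases (add_nonneg hG hg).eq_or_lt with h0 | h0
    · rw [← h0, mul_zero] at hP
      exact absurd hP (lt_irrefl _)
    · exact h0
  have key : H' * (K' + k) ≤ 0 → h * k ≤ 0 → False := by
    intro e5 e6
    have e1 : F' = 0 := by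
      by_contra hne
      have h7 : 0 < F' := lt_of_le_of_ne hF (Ne.symm hne)
      have := mul_pos h7 hGp
      linarith
    have e2 : G' = 0 := by
      by_contra hne
      have h7 : 0 < G' := lt_of_le_of_ne hG (Ne.symm hne)
      have := mul_pos hFp h7
      linarith
    rw [e1, e2] at hP
    linarith
  have hKp : 0 < K' + k := by
    rcases (add_nonneg hK hk).eq_or_lt with h0 | h0
    · exfalso
      have e3 : k = 0 := by linarith
      refine key ?_ ?_
      · rw [← h0, mul_zero]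
      · rw [e3, mul_zero]
    · exact h0
  have hHp : 0 < H' + h := by
    rcases (add_nonneg hH hh).eq_or_lt with h0 | h0
    · exfalso
      have e3 : h = 0 := by linarith
      have e4 : H' = 0 := by linarith
      refine key ?_ ?_
      · rw [e4, zero_mul]
      · rw [e3, zero_mul]
    · exact h0
  -- normalise
  obtain ⟨a, ha⟩ := exists_ratio (x := f) hFp
  obtain ⟨b, hb⟩ := exists_ratio (x := g) hGp
  obtain ⟨e, he⟩ := exists_ratio (x := h) hHp
  obtain ⟨c, hc⟩ := exists_ratio (x := k) hKp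
  obtain ⟨r, hr⟩ := exists_ratio (x := (H' + h) * (K' + k)) hP
  have ha' : F' = (1 - a) * (F' + f) := by linarith
  have hb' : G' = (1 - b) * (G' + g) := by linarith
  have he' : H' = (1 - e) * (H' + h) := by linarith
  have hc' : K' = (1 - c) * (K' + k) := by linarith
  have r0 : 0 ≤ r := ratio_nonneg hP (mul_nonneg hHp.le hKp.le) hr
  have r1 : r < 1 := by
    by_contra h0
    push Not at h0
    have := mul_le_mul_of_nonneg_right h0 hP.le
    linarith
  refine core_norm (ratio_nonneg hHp hh he)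
    (ratio_le_one hFp (by linarith) ha) (ratio_le_one hGp (by linarith) hb)
    (ratio_le_one hHp (by linarith) he) (ratio_le_one hKp (by linarith) hc) r0 r1 ?_ ?_ ?_ ?_
  · refine le_of_mul_le_mul_right (a := (F' + f) * (G' + g)) ?_ hP
    calc (1 - a) * ((F' + f) * (G' + g)) = ((1 - a) * (F' + f)) * (G' + g) := by ring
      _ = F' * (G' + g) := by rw [← ha']
      _ ≤ H' * (K' + k) := h1
      _ = ((1 - e) * (H' + h)) * (K' + k) := by rw [← he']
      _ = (1 - e) * ((H' + h) * (K' + k)) := by ring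
      _ = (1 - e) * (r * ((F' + f) * (G' + g))) := by rw [← hr]
      _ = (1 - e) * r * ((F' + f) * (G' + g)) := by ring
  · refine le_of_mul_le_mul_right (a := (F' + f) * (G' + g)) ?_ hP
    calc (1 - b) * ((F' + f) * (G' + g)) = (F' + f) * ((1 - b) * (G' + g)) := by ring
      _ = (F' + f) * G' := by rw [← hb']
      _ ≤ H' * (K' + k) := h2
      _ = ((1 - e) * (H' + h)) * (K' + k) := by rw [← he']
      _ = (1 - e) * ((H' + h) * (K' + k)) := by ring
      _ = (1 - e) * (r * ((F' + f) * (G' + g))) := by rw [← hr]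
      _ = (1 - e) * r * ((F' + f) * (G' + g)) := by ring
  · refine le_of_mul_le_mul_right (a := (F' + f) * (G' + g)) ?_ hP
    calc (1 - a) * (1 - b) * ((F' + f) * (G' + g))
        = ((1 - a) * (F' + f)) * ((1 - b) * (G' + g)) := by ring
      _ = F' * G' := by rw [← ha', ← hb']
      _ ≤ H' * K' := h3
      _ = ((1 - e) * (H' + h)) * ((1 - c) * (K' + k)) := by rw [← he', ← hc']
      _ = (1 - e) * (1 - c) * ((H' + h) * (K' + k)) := by ring
      _ = (1 - e) * (1 - c) * (r * ((F' + f) * (G' + g))) := by rw [← hr]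
      _ = (1 - e) * (1 - c) * r * ((F' + f) * (G' + g)) := by ring
  · refine le_of_mul_le_mul_right (a := (F' + f) * (G' + g)) ?_ hP
    calc a * b * ((F' + f) * (G' + g)) = (a * (F' + f)) * (b * (G' + g)) := by ring
      _ = f * g := by rw [← ha, ← hb]
      _ ≤ h * k := h4
      _ = (e * (H' + h)) * (c * (K' + k)) := by rw [← he, ← hc]
      _ = e * c * ((H' + h) * (K' + k)) := by ring
      _ = e * c * (r * ((F' + f) * (G' + g))) := by rw [← hr]
      _ = e * c * r * ((F' + f) * (G' + g)) := by ring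

/-- Partial sums. -/
theorem dim1_nat {f g h k : ℕ → ℝ} (hf : ∀ x, 0 ≤ f x) (hg : ∀ x, 0 ≤ g x) (hh : ∀ x, 0 ≤ h x)
    (hk : ∀ x, 0 ≤ k x) (H : ∀ x y, f x * g y ≤ h ((x + y) / 2) * k ((x + y + 1) / 2)) :
    ∀ n a b : ℕ, a + b ≤ n → (∑ x ∈ range a, f x) * (∑ y ∈ range b, g y) ≤
      (∑ i ∈ range ((a + b) / 2), h i) * ∑ i ∈ range ((a + b + 1) / 2), k i := by
  have pf : ∀ a, 0 ≤ ∑ x ∈ range a, f x := fun a => sum_nonneg fun x _ => hf x
  have pg : ∀ a, 0 ≤ ∑ x ∈ range a, g x := fun a => sum_nonneg fun x _ => hg x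
  have ph : ∀ a, 0 ≤ ∑ x ∈ range a, h x := fun a => sum_nonneg fun x _ => hh x
  have pk : ∀ a, 0 ≤ ∑ x ∈ range a, k x := fun a => sum_nonneg fun x _ => hk x
  intro n
  induction n with
  | zero =>
    intro a b hab
    have : a = 0 := by omega
    subst this
    simp only [range_zero, sum_empty, zero_mul]
    exact mul_nonneg (ph _) (pk _)
  | succ n ih =>
    intro a b hab
    rcases Nat.eq_zero_or_pos a with ha | ha
    · subst ha
      simp only [range_zero, sum_empty, zero_mul]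
      exact mul_nonneg (ph _) (pk _)
    rcases Nat.eq_zero_or_pos b with hb | hb
    · subst hb
      simp only [range_zero, sum_empty, mul_zero]
      exact mul_nonneg (ph _) (pk _)
    obtain ⟨a, rfl⟩ : ∃ a', a = a' + 1 := ⟨a - 1, by omega⟩
    obtain ⟨b, rfl⟩ : ∃ b', b = b' + 1 := ⟨b - 1, by omega⟩
    have i1 := ih a (b + 1) (by omega)
    have i2 := ih (a + 1) b (by omega)
    have i3 := ih a b (by omega)
    have i4 := H a b
    rcases Nat.even_or_odd' (a + b) with ⟨m, hm | hm⟩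
    · rw [show (a + (b + 1)) / 2 = m by omega, show (a + (b + 1) + 1) / 2 = m + 1 by omega] at i1
      rw [show (a + 1 + b) / 2 = m by omega, show (a + 1 + b + 1) / 2 = m + 1 by omega] at i2
      rw [show (a + b) / 2 = m by omega, show (a + b + 1) / 2 = m by omega] at i3 i4
      rw [show (a + 1 + (b + 1)) / 2 = m + 1 by omega,
        show (a + 1 + (b + 1) + 1) / 2 = m + 1 by omega]
      rw [sum_range_succ] at i1 i2 ⊢
      rw [sum_range_succ] at i1 i2 ⊢
      rw [sum_range_succ, sum_range_succ]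
      exact core (pf _) (hf _) (pg _) (hg _) (ph _) (hh _) (pk _) (hk _) i1 i2 i3 i4
    · rw [show (a + (b + 1)) / 2 = m + 1 by omega, show (a + (b + 1) + 1) / 2 = m + 1 by omega]
        at i1
      rw [show (a + 1 + b) / 2 = m + 1 by omega, show (a + 1 + b + 1) / 2 = m + 1 by omega] at i2
      rw [show (a + b) / 2 = m by omega, show (a + b + 1) / 2 = m + 1 by omega] at i3 i4
      rw [show (a + 1 + (b + 1)) / 2 = m + 1 by omega,
        show (a + 1 + (b + 1) + 1) / 2 = m + 1 + 1 by omega]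
      rw [sum_range_succ _ a, sum_range_succ _ b, sum_range_succ _ m, sum_range_succ _ (m + 1),
        mul_comm (_ + h m)]
      refine core (pf _) (hf _) (pg _) (hg _) (pk _) (hk _) (ph _) (hh _) ?_ ?_ ?_ ?_
      · rw [← sum_range_succ, ← sum_range_succ, mul_comm (∑ i ∈ range (m + 1), k i)]
        exact i1
      · rw [← sum_range_succ, ← sum_range_succ, mul_comm (∑ i ∈ range (m + 1), k i)]
        exact i2
      · rw [mul_comm (∑ i ∈ range (m + 1), k i)]
        exact i3
      · rw [mul_comm (k _)]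
        exact i4

/-- The sum over a symmetric interval. -/
theorem sum_Icc_range (N : ℕ) (f : ℤ → ℝ) :
    ∑ t ∈ Icc (-(N : ℤ)) N, f t = ∑ i ∈ range (2 * N + 1), f ((i : ℤ) - N) := by
  symm
  refine sum_bij (fun i _ => (i : ℤ) - N) ?_ ?_ ?_ ?_
  · intro i hi
    rw [mem_range] at hi
    rw [mem_Icc]
    omega
  · intro i _ j _ hij
    omega
  · intro t ht
    rw [mem_Icc] at ht
    exact ⟨(t + N).toNat, by rw [mem_range]; omega, by omega⟩
  · intro i _
    rfl

theorem dim1 (N : ℕ) {f g h k : ℤ → ℝ} (hf : ∀ x, 0 ≤ f x) (hg : ∀ x, 0 ≤ g x)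
    (hh : ∀ x, 0 ≤ h x) (hk : ∀ x, 0 ≤ k x)
    (H : ∀ x y, f x * g y ≤ h ((x + y) / 2) * k ((x + y + 1) / 2)) :
    (∑ x ∈ Icc (-(N : ℤ)) N, f x) * (∑ y ∈ Icc (-(N : ℤ)) N, g y) ≤
      (∑ x ∈ Icc (-(N : ℤ)) N, h x) * ∑ x ∈ Icc (-(N : ℤ)) N, k x := by
  rw [sum_Icc_range, sum_Icc_range, sum_Icc_range, sum_Icc_range]
  have := dim1_nat (f := fun i => f ((i : ℤ) - N)) (g := fun i => g ((i : ℤ) - N))
    (h := fun i => h ((i : ℤ) - N)) (k := fun i => k ((i : ℤ) - N)) (fun _ => hf _) (fun _ => hg _)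
    (fun _ => hh _) (fun _ => hk _) ?_ _ (2 * N + 1) (2 * N + 1) le_rfl
  · rw [show (2 * N + 1 + (2 * N + 1)) / 2 = 2 * N + 1 by omega,
      show (2 * N + 1 + (2 * N + 1) + 1) / 2 = 2 * N + 1 by omega] at this
    exact this
  · intro x y
    have := H ((x : ℤ) - N) ((y : ℤ) - N)
    rw [show ((x : ℤ) - N + ((y : ℤ) - N)) / 2 = (((x + y) / 2 : ℕ) : ℤ) - N by omega,
      show ((x : ℤ) - N + ((y : ℤ) - N) + 1) / 2 = (((x + y + 1) / 2 : ℕ) : ℤ) - N by omega] at this
    exact this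

end Vale.Agent.P153.F.PL
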