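import Vale.Agent.P153.F.PL.Multi
import Vale.Agent.P153.Strip.PatLim

/-!
# P153-F: tails of linear functionals of the plane measure, from the discrete midpoint inequality
-/

namespace Vale.Agent.P153.F.PL

open Finset MeasureTheory Filter Topology
open Vale.Agent.P153.GFF (Ht Pat LocLim hexa)

/-- Local limits: expectations of functions of the height differences. -/
theorem lim_loc {P : Measure (ℤ × ℤ → ℤ)} [IsProbabilityMeasure P]
    (hl : ∀ᵐ φ ∂P, ∀ x y, GFF.Adj x y → |φ x - φ y| ≤ 1) (hP : LocLim P hexa)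
    (B : Finset (ℤ × ℤ)) (F : (ℤ × ℤ → ℤ) → ℝ)
    (hF : ∀ φ ψ : ℤ × ℤ → ℤ, (∀ x ∈ B, ∀ y ∈ B, φ x - φ y = ψ x - ψ y) → F φ = F ψ) :
    Tendsto (fun n => Vale.Agent.P153.ev (Fv.reg (hexa n)) F) atTop (𝓝 (∫ φ, F φ ∂P)) := by
  classical
  obtain ⟨A, hA⟩ := Strip.exists_patterns B
  set B' : Finset (ℤ × ℤ) := insert (0, 0) B with hB'
  have e1 : ∀ n, Vale.Agent.P153.ev (Fv.reg (hexa n)) F =
      ∑ a ∈ A, F a * (((Ht (hexa n) ∩ Pat B' a).ncard : ℝ) / (Ht (hexa n)).ncard) := by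
    intro n
    have h1 : ∀ φ ∈ Fv.reg (hexa n), F φ = ∑ a ∈ A, if φ ∈ Pat B' a then F a else 0 :=
      fun φ hφ => hA F hF φ fun x y hxy => (Fv.mem_reg.1 hφ).2.2 x y hxy
    unfold Vale.Agent.P153.ev
    rw [Finset.sum_congr rfl h1, Finset.sum_comm, Finset.sum_div]
    refine Finset.sum_congr rfl fun a _ => ?_
    rw [← Finset.sum_filter, Finset.sum_const, nsmul_eq_mul, Strip.Ht_eq_reg]
    rw [Set.ncard_coe_finset]
    have h2 : ((Fv.reg (hexa n) : Set (ℤ × ℤ → ℤ)) ∩ Pat B' a) =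
        (((Fv.reg (hexa n)).filter fun φ => φ ∈ Pat B' a : Finset (ℤ × ℤ → ℤ)) :
          Set (ℤ × ℤ → ℤ)) := by
      ext φ
      simp
    rw [h2, Set.ncard_coe_finset, mul_comm, mul_div_assoc]
  have e2 : ∫ φ, F φ ∂P = ∑ a ∈ A, F a * P.real (Pat B' a) := by
    have h1 : ∀ᵐ φ ∂P, F φ = ∑ a ∈ A, (Pat B' a).indicator (fun _ => F a) φ := by
      filter_upwards [hl] with φ hφ
      rw [hA F hF φ hφ]
      refine Finset.sum_congr rfl fun a _ => ?_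
      simp only [Set.indicator_apply]
    rw [integral_congr_ae h1, integral_finsetSum]
    · refine Finset.sum_congr rfl fun a _ => ?_
      rw [integral_indicator_const _ (Strip.measurableSet_Pat B' a), smul_eq_mul, mul_comm]
    · intro a _
      exact (integrable_const _).indicator (Strip.measurableSet_Pat B' a)
  simp only [e1]
  rw [e2]
  exact tendsto_finsetSum _ fun a _ => (hP B' a).const_mul _

/-- Linear functional of the heights. -/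
def lin (B : Finset (ℤ × ℤ)) (a : ℤ × ℤ → ℝ) (φ : ℤ × ℤ → ℤ) : ℝ := ∑ v ∈ B, a v * φ v

theorem lin_fl (B : Finset (ℤ × ℤ)) (a : ℤ × ℤ → ℝ) (φ ψ : ℤ × ℤ → ℤ) :
    (lin B a φ + lin B a ψ) / 2 - (∑ v ∈ B, |a v|) / 2 ≤ lin B a (fl φ ψ) := by
  unfold lin
  rw [← sum_add_distrib, sum_div, sum_div, ← sum_sub_distrib]
  refine sum_le_sum fun v _ => ?_
  have h1 : ((2 * ((φ v + ψ v) / 2) : ℤ) : ℝ) ≤ ((φ v + ψ v : ℤ) : ℝ) :=
    Int.cast_le.2 (by omega)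
  have h2 : ((φ v + ψ v : ℤ) : ℝ) ≤ ((2 * ((φ v + ψ v) / 2) + 1 : ℤ) : ℝ) :=
    Int.cast_le.2 (by omega)
  push_cast at h1 h2
  have h3 : (fl φ ψ v : ℤ) = (φ v + ψ v) / 2 := rfl
  rw [h3]
  set m : ℝ := (((φ v + ψ v) / 2 : ℤ) : ℝ) with hm
  have h4 : |a v * (m - ((φ v : ℝ) + ψ v) / 2)| ≤ |a v| * (1 / 2) := by
    rw [abs_mul]
    refine mul_le_mul_of_nonneg_left ?_ (abs_nonneg _)
    rw [abs_le]
    constructor <;> linarith
  have h5 := (abs_le.1 h4).1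
  linarith

theorem lin_ce (B : Finset (ℤ × ℤ)) (a : ℤ × ℤ → ℝ) (φ ψ : ℤ × ℤ → ℤ) :
    (lin B a φ + lin B a ψ) / 2 - (∑ v ∈ B, |a v|) / 2 ≤ lin B a (ce φ ψ) := by
  unfold lin
  rw [← sum_add_distrib, sum_div, sum_div, ← sum_sub_distrib]
  refine sum_le_sum fun v _ => ?_
  have h1 : ((2 * ((φ v + ψ v + 1) / 2) : ℤ) : ℝ) ≤ ((φ v + ψ v + 1 : ℤ) : ℝ) :=
    Int.cast_le.2 (by omega)
  have h2 : ((φ v + ψ v : ℤ) : ℝ) ≤ ((2 * ((φ v + ψ v + 1) / 2) : ℤ) : ℝ) :=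
    Int.cast_le.2 (by omega)
  push_cast at h1 h2
  have h3 : (ce φ ψ v : ℤ) = (φ v + ψ v + 1) / 2 := rfl
  rw [h3]
  set m : ℝ := (((φ v + ψ v + 1) / 2 : ℤ) : ℝ) with hm
  have h4 : |a v * (m - ((φ v : ℝ) + ψ v) / 2)| ≤ |a v| * (1 / 2) := by
    rw [abs_mul]
    refine mul_le_mul_of_nonneg_left ?_ (abs_nonneg _)
    rw [abs_le]
    constructor <;> linarith
  have h5 := (abs_le.1 h4).1
  linarith

theorem ht_fl {D : Finset (ℤ × ℤ)} {φ ψ : ℤ × ℤ → ℤ} (h1 : φ ∈ Ht D) (h2 : ψ ∈ Ht D) :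
    fl φ ψ ∈ Ht D := by
  refine ⟨fun v => ⟨fun hv => ?_, fun hw => ?_⟩, fun v w hvw => ?_⟩
  · have e1 := (h1.1 v).1 hv
    have e2 := (h2.1 v).1 hv
    unfold fl
    omega
  · have e1 := (h1.1 v).2 hw
    have e2 := (h2.1 v).2 hw
    unfold fl
    omega
  · have e1 := h1.2 v w hvw
    have e2 := h2.2 v w hvw
    unfold fl
    rw [abs_le] at *
    omega

theorem ht_ce {D : Finset (ℤ × ℤ)} {φ ψ : ℤ × ℤ → ℤ} (h1 : φ ∈ Ht D) (h2 : ψ ∈ Ht D) :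
    ce φ ψ ∈ Ht D := by
  refine ⟨fun v => ⟨fun hv => ?_, fun hw => ?_⟩, fun v w hvw => ?_⟩
  · have e1 := (h1.1 v).1 hv
    have e2 := (h2.1 v).1 hv
    unfold ce
    omega
  · have e1 := (h1.1 v).2 hw
    have e2 := (h2.1 v).2 hw
    unfold ce
    omega
  · have e1 := h1.2 v w hvw
    have e2 := h2.2 v w hvw
    unfold ce
    rw [abs_le] at *
    omega

open Classical in
/-- Indicator of `t ≤ X`. -/
noncomputable def tl (B : Finset (ℤ × ℤ)) (a : ℤ × ℤ → ℝ) (t : ℝ) (φ : ℤ × ℤ → ℤ) : ℝ :=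
  if t ≤ lin B a φ then 1 else 0

theorem ev_tl (D B : Finset (ℤ × ℤ)) (a : ℤ × ℤ → ℝ) (t : ℝ) :
    Vale.Agent.P153.ev (Fv.reg D) (tl B a t) =
      ((({φ | φ ∈ Ht D ∧ t ≤ lin B a φ} : Set (ℤ × ℤ → ℤ)).ncard : ℕ) : ℝ) /
        ((Fv.reg D).card : ℝ) := by
  classical
  unfold Vale.Agent.P153.ev tl
  congr 1
  rw [← Finset.sum_filter, Finset.sum_const, nsmul_eq_mul, mul_one, Strip.Ht_eq_reg]
  have : {φ : ℤ × ℤ → ℤ | φ ∈ (Fv.reg D : Set (ℤ × ℤ → ℤ)) ∧ t ≤ lin B a φ} =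
      (((Fv.reg D).filter fun φ => t ≤ lin B a φ : Finset (ℤ × ℤ → ℤ)) : Set (ℤ × ℤ → ℤ)) := by
    ext φ
    simp
  rw [this, Set.ncard_coe_finset]

theorem ev_tl_mul (D B : Finset (ℤ × ℤ)) (a : ℤ × ℤ → ℝ) (t s : ℝ) :
    Vale.Agent.P153.ev (Fv.reg D) (tl B a t) * Vale.Agent.P153.ev (Fv.reg D) (tl B a s) ≤
      Vale.Agent.P153.ev (Fv.reg D) (tl B a ((t + s) / 2 - (∑ v ∈ B, |a v|) / 2)) ^ 2 := by
  rw [ev_tl, ev_tl, ev_tl, div_mul_div_comm, div_pow, sq ((Fv.reg D).card : ℝ)]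
  refine div_le_div_of_nonneg_right ?_ (by positivity)
  rw [sq]
  have hfin : (Ht D).Finite := by
    rw [Strip.Ht_eq_reg]
    exact Finset.finite_toSet _
  refine card_mid (D := D) (hfin.subset fun _ h => h.1) (hfin.subset fun _ h => h.1)
    (hfin.subset fun _ h => h.1) (hfin.subset fun _ h => h.1) ?_ ?_ ?_
  · rintro h (hh | hh) x hx
    · exact (hh.1.1 x).1 hx
    · exact (hh.1.1 x).1 hx
  · intro φ hφ ψ hψ
    refine ⟨ht_fl hφ.1 hψ.1, le_trans ?_ (lin_fl B a φ ψ)⟩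
    have h1 : t ≤ lin B a φ := hφ.2
    have h2 : s ≤ lin B a ψ := hψ.2
    linarith
  · intro φ hφ ψ hψ
    refine ⟨ht_ce hφ.1 hψ.1, le_trans ?_ (lin_ce B a φ ψ)⟩
    have h1 : t ≤ lin B a φ := hφ.2
    have h2 : s ≤ lin B a ψ := hψ.2
    linarith

theorem lin_grad {B : Finset (ℤ × ℤ)} {a : ℤ × ℤ → ℝ} (ha : ∑ v ∈ B, a v = 0) {φ ψ : ℤ × ℤ → ℤ}
    (h : ∀ x ∈ B, ∀ y ∈ B, φ x - φ y = ψ x - ψ y) : lin B a φ = lin B a ψ := by
  rcases B.eq_empty_or_nonempty with hB | ⟨x₀, hx₀⟩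
  · subst hB
    simp [lin]
  · have h1 : ∀ η : ℤ × ℤ → ℤ, lin B a η = ∑ v ∈ B, a v * ((η v - η x₀ : ℤ) : ℝ) := by
      intro η
      unfold lin
      have h2 : ∑ v ∈ B, a v * ((η v - η x₀ : ℤ) : ℝ) =
          ∑ v ∈ B, a v * η v - (∑ v ∈ B, a v) * η x₀ := by
        rw [sum_mul, ← sum_sub_distrib]
        refine sum_congr rfl fun v _ => ?_
        push_cast
        ring
      rw [h2, ha]
      ring
    rw [h1, h1]
    exact sum_congr rfl fun v hv => by rw [h v hv x₀ hx₀]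

theorem measurable_lin (B : Finset (ℤ × ℤ)) (a : ℤ × ℤ → ℝ) : Measurable (lin B a) := by
  unfold lin
  refine Finset.measurable_fun_sum _ fun v _ => ?_
  have h1 : Measurable fun φ : ℤ × ℤ → ℤ => φ v := measurable_pi_apply v
  exact (measurable_from_top (f := fun n : ℤ => (n : ℝ))).comp h1 |>.const_mul _

/-- The midpoint inequality for the tails in the plane. -/
theorem tail_mid {P : Measure (ℤ × ℤ → ℤ)} [IsProbabilityMeasure P]
    (hl : ∀ᵐ φ ∂P, ∀ x y, GFF.Adj x y → |φ x - φ y| ≤ 1) (hP : LocLim P hexa)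
    {B : Finset (ℤ × ℤ)} {a : ℤ × ℤ → ℝ} (ha : ∑ v ∈ B, a v = 0) (t s : ℝ) :
    P.real {φ | t ≤ lin B a φ} * P.real {φ | s ≤ lin B a φ} ≤
      P.real {φ | (t + s) / 2 - (∑ v ∈ B, |a v|) / 2 ≤ lin B a φ} ^ 2 := by
  have hm := measurable_lin B a
  have e : ∀ t, ∫ φ, tl B a t φ ∂P = P.real {φ | t ≤ lin B a φ} := by
    intro t
    have h1 : tl B a t = ({φ | t ≤ lin B a φ} : Set (ℤ × ℤ → ℤ)).indicator (fun _ => (1 : ℝ)) := by
      funext φ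
      simp only [tl, Set.indicator_apply, Set.mem_ofPred_eq]
    rw [h1, integral_indicator_const _ (measurableSet_le measurable_const hm), smul_eq_mul, mul_one]
  have hF : ∀ t, ∀ φ ψ : ℤ × ℤ → ℤ, (∀ x ∈ B, ∀ y ∈ B, φ x - φ y = ψ x - ψ y) →
      tl B a t φ = tl B a t ψ := by
    intro t φ ψ h
    unfold tl
    rw [lin_grad ha h]
  have h1 := lim_loc hl hP B (tl B a t) (hF t)
  have h2 := lim_loc hl hP B (tl B a s) (hF s)
  have h3 := lim_loc hl hP B (tl B a ((t + s) / 2 - (∑ v ∈ B, |a v|) / 2)) (hF _)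
  rw [e] at h1 h2 h3
  exact le_of_tendsto_of_tendsto' (h1.mul h2) (h3.pow 2) fun n => ev_tl_mul _ B a t s

end Vale.Agent.P153.F.PL
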